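import Vale.Agent.P318.H6.Defs
import Vale.Agent.P318.H937.Spec

/-!
# P318, g(n) ≥ (log n)^c: frozen specifications (helper6)
-/

open Finset

namespace Vale.Agent.P318.H6

open Vale.Agent.P318.H937

/-- (1.1)-(1.3): GUV condensers with general `h = 2^j`, `q = 2^(2j)` seeds -/
def SpecCOND : Prop := ∀ j w d a : ℕ, 1 ≤ j → 2 * w + 2 * j ≤ a →
  Cond a (2 ^ w) (2 ^ (2 * j)) d ((2 * w + 1) * ((d + 2) * (w + 1)) / 2 ^ j)

/-- Lemma 2 -/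
def SpecGLUE2 : Prop := ∀ (Z Zb Zc Zbc : Type) [Fintype Z] [Fintype Zb] [Fintype Zc]
  [Fintype Zbc] [DecidableEq Z] [DecidableEq Zb] [DecidableEq Zc] [DecidableEq Zbc]
  (q W' : ℕ) (e : ℝ) (be : Fin q → Z → Zb) (be' : Fin q → Zc → Zbc) (ga : Fin q → Z → Zc)
  (ga' : Fin q → Zb → Zbc), 0 < q → 0 ≤ e → e ≤ 1 / 200 →
  (∀ b c z, be' b (ga c z) = ga' c (be b z)) →
  Loss (fun b (p : Zc × Zc) => (be' b p.1, be' b p.2)) W' e → Loss be' W' e → Loss ga' W' e →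
  Loss ga W' e → EProp be' ga ga' (12 * e) →
  ∀ (W : ℕ), 5 * W ≤ W' → ∀ (Q : Fin q → Zb → ZMod 2) (P : Fin q → Zc → ZMod 2)
    (PP : Fin q → Fin q → Zc × Zc → ZMod 2),
    (∀ b, sz (Q b) ≤ W) → (∀ c, sz (P c) ≤ W) → (∀ c c', sz (PP c c') ≤ W) →
    (∀ c c', push Prod.fst (PP c c') = P c) → (∀ c c', push Prod.snd (PP c c') = P c') →
    (∀ b c c', push (fun p : Zc × Zc => (be' b p.1, be' b p.2)) (PP c c') =
      push (fun z => (ga' c z, ga' c' z)) (Q b)) →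
    ∃ U : Z → ZMod 2, (1 - 2 * e) * sz U ≤ W ∧ (∀ b, push (be b) U = Q b) ∧
      (∀ c, push (ga c) U = P c) ∧ ∀ c c', push (fun z => (ga c z, ga c' z)) U = PP c c'

/-- property (E) for direct sums -/
def SpecEDS : Prop := ∀ (C1 C2 A L : Type) [AddCommGroup C1] [Module (ZMod 2) C1]
  [AddCommGroup C2] [Module (ZMod 2) C2] [AddCommGroup A] [Module (ZMod 2) A]
  [Fintype C1] [Fintype C2] [Fintype A] [Fintype L]
  [DecidableEq C1] [DecidableEq C2] [DecidableEq A] [DecidableEq L]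
  (q : ℕ) (e : ℝ) (E : Fin q → C1 →ₗ[ZMod 2] A) (F : Fin q → C2 →ₗ[ZMod 2] A),
  0 < q → 0 ≤ e → e ≤ 1 / 200 → VLoss E 2 e → VLoss F 2 e →
  EProp (Z := C1 × C2 × L) (fun b (z : C1 × A × L) => (E b z.1, z.2.1, z.2.2))
    (fun c (z : C1 × C2 × L) => (z.1, F c z.2.1, z.2.2))
    (fun c (z : A × C2 × L) => (z.1, F c z.2.1, z.2.2)) (12 * e)

/-- index compression `(J → Y) → (Fin a → Y)` by a linear map `F₂^J → F₂^a` -/
def idx {J Y : Type} [Fintype J] [DecidableEq J] [AddCommGroup Y] [Module (ZMod 2) Y] {a : ℕ}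
    (G : (J → ZMod 2) →ₗ[ZMod 2] (Fin a → ZMod 2)) : (J → Y) →ₗ[ZMod 2] (Fin a → Y) where
  toFun x i := ∑ j, G (Pi.single j 1) i • x j
  map_add' x y := by ext i; simp [sum_add_distrib]
  map_smul' r x := by
    ext i
    simp only [Pi.smul_apply, RingHom.id_apply, smul_sum]
    exact sum_congr rfl fun j _ => smul_comm _ _ _

/-- property (E) for tensors -/
def SpecETS : Prop := ∀ (J La A L : Type) [Fintype J] [DecidableEq J] [AddCommGroup La]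
  [Module (ZMod 2) La] [AddCommGroup A] [Module (ZMod 2) A] [Fintype La] [Fintype A] [Fintype L]
  [DecidableEq La] [DecidableEq A] [DecidableEq L] (a q : ℕ) (e : ℝ)
  (E : Fin q → La →ₗ[ZMod 2] A) (G : Fin q → (J → ZMod 2) →ₗ[ZMod 2] (Fin a → ZMod 2)),
  0 < q → 0 ≤ e → 200 * (Module.finrank (ZMod 2) La + 1) * e ≤ 1 → VLoss E 2 e → VLoss G 2 e →
  EProp (Z := (J → La) × L) (fun b (z : (Fin a → La) × L) => ((fun i => E b (z.1 i)), z.2))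
    (fun c (z : (J → La) × L) => (idx (G c) z.1, z.2))
    (fun c (z : (J → A) × L) => (idx (G c) z.1, z.2)) (12 * e)

/-- (3.1): retract -/
def SpecRETRACT : Prop := ∀ (a a' D W' q N : ℕ) (g e : ℝ) (Y0 Y : Type) [AddCommGroup Y0]
  [Module (ZMod 2) Y0] [Fintype Y0] [DecidableEq Y0] [AddCommGroup Y] [Module (ZMod 2) Y]
  [Fintype Y] [DecidableEq Y], 0 < q → a ≤ a' → 0 ≤ e → e ≤ 1 / 200 → 0 ≤ g →
  Cond a W' q (Module.finrank (ZMod 2) Y0) e → CodeAt a' D W' N g Y0 →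
  Module.finrank (ZMod 2) Y ≤ Module.finrank (ZMod 2) Y0 →
  CodeAt a' D W' (3 * q * N) g Y

/-- (3.0) -/
def SpecBASE : Prop := ∀ a' D W' : ℕ, CodeThm a' D W' D 1 1

/-- (3.2): direct-sum step -/
def SpecDS : Prop := ∀ (a a' D W' q c N : ℕ) (g e : ℝ), 0 < q → a ≤ a' → 0 ≤ e → e ≤ 1 / 200 →
  0 ≤ g → Cond a W' q (2 * c + 3 * a') e → CodeThm a' D W' (c + 2 * a') N g →
  CodeThm a' D W' (2 * c) (24 * q ^ 5 * N) (g / (1 - 2 * e))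

/-- (3.3): tensor step -/
def SpecTS : Prop := ∀ (a a' D W' q n N : ℕ) (g e : ℝ), 0 < q → 1 ≤ a → a ≤ a' → a ≤ n →
  0 ≤ e → 200 * (n + 1) * e ≤ 1 → 0 ≤ g → Cond a W' q (n ^ 2 + 2 * a * n + a') e →
  CodeThm a' D W' (2 * a * n + a') N g →
  CodeThm a' D W' (n ^ 2) (40 * n * q ^ 5 * N) (g / (1 - 2 * e))

/-- section 4: from the code theorem to a good code; `h` is the hash family -/
def SpecTOP : Prop := ∀ (a a' eh D w q qh κ N d k : ℕ) (pc e : ℝ), 0 < q → 0 < qh →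
  a + eh ≤ a' → a' ≤ D → 0 ≤ e → e ≤ 1 / 200 → Cond a (2 ^ w) q κ e →
  ∀ h : Fin qh → (Fin κ → ZMod 2) →ₗ[ZMod 2] (Fin eh → ZMod 2),
  (∀ x, x ≠ 0 → ((univ.filter fun y => h y x = 0).card : ℝ) ≤ pc * qh) →
  CodeAt a' D (2 ^ w) N 2 (Fin κ → ZMod 2) →
  400 * (N * (2 + q + qh * q) + 1) * d ≤ 2 ^ w → k ≤ 2 ^ w →
  ∃ (V V1 : Submodule (ZMod 2) ((Fin κ → ZMod 2) → ZMod 2)) (Γ : Type)
    (g : Γ → (Fin κ → ZMod 2) → ZMod 2),
    GoodCode (Fin κ → ZMod 2) κ D d k ((N + 1) * (2 + q + qh * q) * 2 ^ D) pc V V1 Γ g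

/-- the code exists with the final parameters: `dim V ≤ 2^(C ℓ)` -/
def SpecCODE6 : Prop := ∃ C ℓ0 : ℕ, ∀ ℓ ≥ ℓ0, ∃ κ s k D : ℕ,
  2 ^ (2 * ℓ + 30) ≤ κ ∧ κ ≤ 2 ^ (4 * ℓ + 60) ∧ 6 * ℓ + 100 ≤ s ∧ s ≤ C * ℓ ∧
  2 ^ (4 * ℓ + 70) ≤ k ∧ D ≤ 2 ^ (C * ℓ) ∧
  ∃ (X : Type) (_ : AddCommGroup X) (_ : Module (ZMod 2) X) (_ : Fintype X) (_ : DecidableEq X)
    (V V1 : Submodule (ZMod 2) (X → ZMod 2)) (Γ : Type) (g : Γ → X → ZMod 2),
    GoodCode X κ s (2 ^ (2 * ℓ + 20)) k D ((1 / 2) ^ (6 * ℓ + 80)) V V1 Γ g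

/-- section 3.4 and parameters: everything above gives the code -/
def SpecPARAM : Prop := SpecCOND → SpecGUV → SpecBASE → SpecDS → SpecTS → SpecTOP → SpecCODE6

open Vale.Agent.P318.H867 in
/-- final statement, existence form -/
def SpecMAIN6 : Prop := ∃ c : ℝ, 0 < c ∧ ∃ n₀ : ℕ, ∀ n ≥ n₀, ∃ cap : Fin n → Fin n → ℝ,
  IsCap cap ∧ 0 < glValue cap ∧ (Real.log n) ^ c * glValue cap ≤ phi cap

/-- transfer with the new dimension bound -/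
def SpecTRANSFER6 : Prop := SpecCODE6 → SpecCUT → SpecSDP → SpecMAIN6

end Vale.Agent.P318.H6
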