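import Vale.Agent.P318.H937.Defs

/-!
# P318, g(n) ≥ (log n)^c: definitions of the recursive code construction (helper6)

Text: `Vale/Agent/P318/H6/PROOF.md`.  Mod-2 measures, `push`, `sz`, `GoodCode` are those of
`H937.Defs`.
-/

open Finset

namespace Vale.Agent.P318.H6

open Vale.Agent.P318.H937

/-- the family `T c`, `c : Fin q`, loses at most a fraction `e` of the elements of sets of size
at most `W` -/
def Loss {q : ℕ} {X X' : Type} [DecidableEq X'] (T : Fin q → X → X') (W : ℕ) (e : ℝ) : Prop :=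
  ∀ U : Finset X, U.card ≤ W → (1 - e) * q * U.card ≤ ∑ c, ((U.image (T c)).card : ℝ)

/-- vector-valued and labelled losslessness: `E c` applied to every entry of a vector of elements
of `Y`, the label in `L` is kept -/
def VLoss {q : ℕ} {Y A : Type} [AddCommGroup Y] [Module (ZMod 2) Y] [AddCommGroup A]
    [Module (ZMod 2) A] [DecidableEq A] (E : Fin q → Y →ₗ[ZMod 2] A) (W : ℕ) (e : ℝ) : Prop :=
  ∀ (J L : Type) [Fintype J] [DecidableEq J] [DecidableEq L],
    Loss (fun c (p : (J → Y) × L) => ((fun j => E c (p.1 j)), p.2)) W e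

/-- `q` seeds, output dimension `a`, sets of size at most `W`, all input spaces of dimension at
most `d`, loss `e` -/
def Cond (a W q d : ℕ) (e : ℝ) : Prop :=
  ∀ (Y : Type) [AddCommGroup Y] [Module (ZMod 2) Y] [Fintype Y],
    Module.finrank (ZMod 2) Y ≤ d →
    ∃ E : Fin q → Y →ₗ[ZMod 2] (Fin a → ZMod 2), VLoss E W e

/-- property (E) of section 2 -/
def EProp {q : ℕ} {Z Zb Zc Zbc : Type} [DecidableEq Zc] [DecidableEq Zbc]
    (be' : Fin q → Zc → Zbc) (ga : Fin q → Z → Zc) (ga' : Fin q → Zb → Zbc) (δ : ℝ) : Prop :=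
  ∀ (f : Fin q → Zb) (p : Fin q → Zc),
    (1 - δ) * (q : ℝ) ^ 2 ≤
      ((univ.filter fun bc : Fin q × Fin q => ga' bc.2 (f bc.1) = be' bc.1 (p bc.2)).card : ℝ) →
    ∃ u : Z, 3 / 4 * (q : ℝ) ≤ ((univ.filter fun c : Fin q => ga c u = p c).card : ℝ)

/-- the code theorem for one space `Y`: for every family `R` of linear maps to `F₂^a'` there is a
family `T` of at most `N (1 + |R|)` linear maps to `F₂^D` such that a mod-2 measure `B` whose
images under `T` have size at most `W` agrees with a measure `U` of size at most `g W` on `T` and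
on `R` -/
def CodeAt (a' D W' N : ℕ) (g : ℝ) (Y : Type) [AddCommGroup Y] [Module (ZMod 2) Y] [Fintype Y]
    [DecidableEq Y] : Prop :=
  ∀ (κ : Type) [Fintype κ] (R : κ → Y →ₗ[ZMod 2] (Fin a' → ZMod 2)),
    ∃ (ι : Type) (_ : Fintype ι) (T : ι → Y →ₗ[ZMod 2] (Fin D → ZMod 2)),
      Fintype.card ι ≤ N * (1 + Fintype.card κ) ∧
      ∀ (W : ℕ) (B : Y → ZMod 2), 5 * g * W ≤ W' → (∀ i, sz (push (T i) B) ≤ W) →
        ∃ U : Y → ZMod 2, (sz U : ℝ) ≤ g * W ∧ (∀ i, push (T i) U = push (T i) B) ∧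
          ∀ k, push (R k) U = push (R k) B

/-- the code theorem for all spaces of dimension at most `d` -/
def CodeThm (a' D W' d N : ℕ) (g : ℝ) : Prop :=
  ∀ (Y : Type) [AddCommGroup Y] [Module (ZMod 2) Y] [Fintype Y] [DecidableEq Y],
    Module.finrank (ZMod 2) Y ≤ d → CodeAt a' D W' N g Y

end Vale.Agent.P318.H6
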